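import Vale.Agent.P063.Defs
import Vale.Agent.P063.Main

/-!
Both conjectures of Friedgut and Kalai on threshold widths of monotone hypergraph properties.
-/

open Vale.Agent.P063

/-- For every `r ≥ 2` and `0 < ε < 1/2` there is `C` such that every nontrivial increasing
isomorphism-invariant property of `r`-uniform hypergraphs on `n ≥ r` vertices has threshold width
at most `C (log n)^(-r/(r-1))`. -/
theorem Vale.Agent.Results.P063.ThresholdWidth.result :
    ∀ r : ℕ, 2 ≤ r → ∀ ε : ℝ, 0 < ε → ε < 1/2 →
      ∃ C : ℝ, ∀ n : ℕ, r ≤ n → ∀ P : Set (Finset (Edge n r)),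
        IsIncreasing P → IsInvariant P → P.Nonempty → P ≠ Set.univ →
        width ε P ≤ C * Real.log n ^ (-((r:ℝ) / ((r:ℝ) - 1))) :=
  fun r hr ε hε hε2 => width_bound r hr ε hε hε2
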